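import Mathlib.Geometry.Manifold.MFDeriv.Defs
import Mathlib.Geometry.Manifold.ContMDiff.Defs
import Mathlib.Analysis.InnerProductSpace.Projection.FiniteDimensional
import Mathlib.Analysis.Calculus.Deriv.Basic
import Mathlib.LinearAlgebra.Matrix.NonsingularInverse

/-! Smooth mean curvature flow of a parametrised surface. The charts take their values in the
plane `V` with the coordinate vectors `e 0`, `e 1`; the ambient Euclidean space is `W`. -/

open Set
open scoped Manifold ContDiff RealInnerProductSpace

namespace Vale.Agent.P218FS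

variable {V W : Type*} [NormedAddCommGroup V] [NormedSpace ℝ V] [NormedAddCommGroup W]
  [InnerProductSpace ℝ W] [FiniteDimensional ℝ W]

/-- the induced metric `g_ij = ⟨∂_i G, ∂_j G⟩` of a local parametrisation `G` at `u` -/
noncomputable def metric (e : Fin 2 → V) (G : V → W) (u : V) : Matrix (Fin 2) (Fin 2) ℝ :=
  Matrix.of fun i j => ⟪fderiv ℝ G u (e i), fderiv ℝ G u (e j)⟫

/-- the mean curvature vector `g^{ij} (∂_i ∂_j G)^⊥` of a local parametrisation `G` at `u`, where
`⊥` is the orthogonal projection to the normal space, the orthogonal complement of the range of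
`DG(u)` -/
noncomputable def meanCurvChart (e : Fin 2 → V) (G : V → W) (u : V) : W :=
  ∑ i, ∑ j, (metric e G u)⁻¹ i j •
    (LinearMap.range (fderiv ℝ G u).toLinearMap)ᗮ.starProjection
      (fderiv ℝ (fderiv ℝ G) u (e i) (e j))

variable {M : Type*} [TopologicalSpace M] [ChartedSpace V M]

/-- the mean curvature vector at `p` of an immersion `f` of a surface `M`, computed in the
preferred chart at `p` -/
noncomputable def meanCurv (e : Fin 2 → V) (f : M → W) (p : M) : W :=
  meanCurvChart e (f ∘ (chartAt V p).symm) (chartAt V p p)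

/-- `F_t : M → W`, `0 ≤ t < T`, is a smooth mean curvature flow: `F` is smooth on `[0, T) × M`,
every `F_t` is an immersion, and `∂_t F = H`, the mean curvature vector of `F_t`. -/
structure IsSmoothMCF (e : Fin 2 → V) (F : ℝ → M → W) (T : ℝ) : Prop where
  smooth : ContMDiffOn (𝓘(ℝ, ℝ).prod 𝓘(ℝ, V)) 𝓘(ℝ, W) ∞ (fun z : ℝ × M => F z.1 z.2)
    (Ico 0 T ×ˢ univ)
  immersion : ∀ t ∈ Ico 0 T, ∀ p, Function.Injective (mfderiv 𝓘(ℝ, V) 𝓘(ℝ, W) (F t) p)
  flow : ∀ t ∈ Ioo 0 T, ∀ p, HasDerivAt (fun s => F s p) (meanCurv e (F t) p) t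

end Vale.Agent.P218FS
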