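import Vale.Agent.P218ST.Done
import Vale.Agent.P218UV.Fin
import Vale.Agent.P218RS.Norm
import Vale.Agent.P218FS.Defs

/-! # Uniqueness of tangent flows of surfaces up to and including the first singular time

(A) For the smooth mean curvature flow `(M_t)_{0 ≤ t < T}` of a closed connected embedded surface in
`ℝ³`, the tangent flow at every point `(x₀, t₀)`, `0 < t₀ ≤ T`, is unique in fixed coordinates: the
rescaled flows converge as `λ → ∞` to the multiplicity one flow of a smooth properly embedded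
self-shrinker (empty if the flow does not reach the point) with cylindrical and conical ends.

(B) For any integral Brakke flow of finite mass and any point, the tangent flow is unique as soon as
one tangent flow is the multiplicity one flow of such a self-shrinker. -/

open MeasureTheory Set Filter Topology
open scoped Manifold ContDiff Pointwise

namespace Vale.Agent.P218FS.First

open Vale.Agent.P218 (IsIntegralBrakkeFlow IsTangentFlow TangentFlowUnique rescaled)
open Vale.Agent.P218ST (IsSmoothShrinker)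
open Vale.Agent.P218GA (HasCylConeEnds)
open Vale.Agent.P218FS (IsSmoothMCF)

theorem result :
    (∀ (M : Type) [TopologicalSpace M] [ChartedSpace (EuclideanSpace ℝ (Fin 2)) M]
      [IsManifold (𝓡 2) ∞ M] [T2Space M] [CompactSpace M] [ConnectedSpace M]
      (F : ℝ → M → EuclideanSpace ℝ (Fin 3)) (T : ℝ),
      IsSmoothMCF (fun i => (EuclideanSpace.single i 1 : EuclideanSpace ℝ (Fin 2))) F T →
      Function.Injective (F 0) →
      ∀ μ : ℝ → Measure (EuclideanSpace ℝ (Fin 3)),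
        (∀ t ∈ Ico 0 T,
          μ t = (μHE[2] : Measure (EuclideanSpace ℝ (Fin 3))).restrict (range (F t))) →
      ∀ (x₀ : EuclideanSpace ℝ (Fin 3)) (t₀ : ℝ), 0 < t₀ → t₀ ≤ T →
        TangentFlowUnique 2 μ x₀ t₀ ∧
        ∃ S : Set (EuclideanSpace ℝ (Fin 3)),
          ((∃ Φ, IsSmoothShrinker S Φ) ∧ HasCylConeEnds S) ∧
          ∀ s < 0, ∀ φ : EuclideanSpace ℝ (Fin 3) → ℝ, Continuous φ → HasCompactSupport φ →
            Tendsto (fun lam : ℝ => ∫ x, φ x ∂(rescaled 2 μ x₀ t₀ lam s)) atTop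
              (𝓝 (∫ x in √(-s) • S, φ x ∂μHE[2]))) ∧
    ∀ μ : ℝ → Measure (EuclideanSpace ℝ (Fin 3)), IsIntegralBrakkeFlow 2 μ → μ 0 univ < ⊤ →
      ∀ (x₀ : EuclideanSpace ℝ (Fin 3)) (t₀ : ℝ), 0 < t₀ →
      ∀ S : Set (EuclideanSpace ℝ (Fin 3)), (∃ Φ, IsSmoothShrinker S Φ) → HasCylConeEnds S →
        (∃ ν, IsTangentFlow 2 μ x₀ t₀ ν ∧
          ν (-1) = (μH[2] : Measure (EuclideanSpace ℝ (Fin 3))).restrict S) →
        TangentFlowUnique 2 μ x₀ t₀ ∧ ∀ ν, IsTangentFlow 2 μ x₀ t₀ ν →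
          ν (-1) = (μH[2] : Measure (EuclideanSpace ℝ (Fin 3))).restrict S := by
  refine ⟨fun M _ _ _ _ _ _ F T hF h0 μ hμ x₀ t₀ h1 h2 => P218RS.normalise hμ fun μ hμ => ?_,
    fun μ h1 h2 x₀ t₀ h3 S ⟨Φ, h4⟩ h5 h6 => ?_⟩
  · obtain ⟨a, S, Φ, b, c, d⟩ := P218UV.final_of_main P218ST.main F t₀ h1
      ⟨hF.smooth.mono (prod_mono (Ico_subset_Ico_right h2) le_rfl),
        fun t ht => hF.immersion t (Ico_subset_Ico_right h2 ht),
        fun t ht => hF.flow t (Ioo_subset_Ioo_right h2 ht)⟩ h0 μ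
      (fun t ht => hμ t (Ico_subset_Ico_right h2 ht)) x₀
    exact ⟨a, S, ⟨⟨Φ, b⟩, c⟩, d⟩
  · have e : (μH[2] : Measure (EuclideanSpace ℝ (Fin 3))) = μH[(2 : ℕ)] := by norm_num
    rw [e] at h6 ⊢
    exact P218ST.mainSmooth S Φ h4 h5 μ h1 h2 x₀ t₀ h3 h6

end Vale.Agent.P218FS.First
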